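import Vale.Agent.P235.ST.H317.Defs

/-! P235, (ST) O(1): target pairs, regular walks, laws (official definitions). -/

namespace Vale.Agent.P235.STO

open SimpleGraph

variable {V : Type}

/-- target pair of scale function `ρ` -/
def LWorld.tgt [Fintype V] (W : LWorld V) (ρ : V → ℝ) (z y : V) : Prop :=
  z ∈ W.N ∧ y ∈ W.N ∧ W.u z = W.u y ∧ W.idx z ≤ W.idx y ∧ r0 ≤ W.d z y ∧
    W.nxt ρ z < W.d z y ∧ W.d z y ≤ ρ z ∧
    (kap * ρ z < 2 * W.d z y ∨ ∃ k m, m < 16 ∧ inList (ρ z) k ∧ W.serves k m z y)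

/-- the situation of a clock `(k, m)` around `p` for a walk `g` -/
structure LWorld.Reg (W : LWorld V) (ρ : V → ℝ) (p : V) (k m : ℕ)
    {a b : V} (g : W.G.Walk a b) : Prop where
  m16 : m < 16
  big : 2 ^ 100 ≤ ρ p
  lo : 64 * d1 * ρ p ≤ (th k : ℝ)
  hi : (th k : ℝ) ≤ (2 / 3) * dl * ρ p
  ball : ∀ z ∈ g.support, W.d p z ≤ kap * ρ p / 4 + 1
  band : ∀ z ∈ g.support, 6 * 2 ^ k ≤ W.pos k m z ∧ W.pos k m z ≤ 9 * 2 ^ k
  same : ∀ z ∈ g.support, W.bi k m z = W.bi k m a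

/-- a finite law (uniform on `Ω`) of functions, good for all levels `≥ i` -/
def LWorld.Law [Fintype V] (W : LWorld V) (i : ℕ) : Prop :=
  ∃ (Ω : Type) (_ : Fintype Ω) (_ : Nonempty Ω) (w : Ω → V → ℝ),
    (∀ o, W.Inv (W.rho i) (w o)) ∧
    (∀ x, ∑ o, w o x = Fintype.card Ω * (W.u x : ℝ)) ∧
    (∀ x y, W.G.Adj x y → ∑ o, |w o x - w o y| = Fintype.card Ω) ∧
    ∀ j, i ≤ j → ∀ z y, W.tgt (W.rho j) z y →
      Fintype.card Ω * (1 / 2 ^ 180 * W.d z y) ≤ ∑ o, |w o z - w o y|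

end Vale.Agent.P235.STO
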