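import Vale.Agent.P235.ST.H317.Defs2

/-! P235, (ST) O(1), row 12: all stretches from one stretch. -/

namespace Vale.Agent.P235.STO.H317

open SimpleGraph

variable {V : Type} (W : LWorld V)

theorem cost_append' {G : SimpleGraph V} (w : V → ℝ) {x y z : V} (p : G.Walk x y)
    (q : G.Walk y z) : cost w (p.append q) = cost w p + cost w q := by
  induction p with
  | nil => simp [cost]
  | cons h p ih => simp [cost, ih, add_assoc]

variable [Fintype V]

/-- statement of row 11 -/
def Stretch (W : LWorld V) : Prop := ∀ {ρ w : V → ℝ} (_ : W.Scale ρ) (_ : W.Inv (W.nxt ρ) w)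
    {p a b : V} {k m : ℕ} (g : W.G.Walk a b) (_ : g.IsPath) (_ : W.Reg ρ p k m g)
    (_ : a ∈ W.N) (_ : b ∈ W.N) (_ : a ≠ b),
    (W.D k m b : ℝ) ≤ W.D k m a + (5 / 4) * cost w g + 64 * d1 * ρ p ∨
    ∃ (c : V) (g1 : W.G.Walk a c) (g2 : W.G.Walk c b), g = g1.append g2 ∧ 0 < g1.length ∧
      c ∈ W.N ∧ (W.D k m c : ℝ) ≤ W.D k m a + (5 / 4) * cost w g1

theorem stretches_of (W : LWorld V) (hS : Stretch W) {ρ w : V → ℝ} (hρ : W.Scale ρ)
    (hw : W.Inv (W.nxt ρ) w) {p a b : V}
    {k m : ℕ} (g : W.G.Walk a b) (hg : g.IsPath) (hr : W.Reg ρ p k m g) (ha : a ∈ W.N)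
    (hb : b ∈ W.N) :
    (W.D k m b : ℝ) ≤ W.D k m a + (5 / 4) * cost w g + 64 * d1 * ρ p := by
  have hd1 : (0 : ℝ) ≤ 64 * d1 * ρ p := by
    have := hρ.nonneg p
    have : (0 : ℝ) < d1 := by unfold d1; positivity
    positivity
  induction hn : g.length using Nat.strong_induction_on generalizing a with
  | _ n ih =>
    by_cases hab : a = b
    · subst hab
      have : g = Walk.nil := by
        cases g with
        | nil => rfl
        | cons h q =>
          exfalso
          rw [Walk.cons_isPath_iff] at hg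
          exact hg.2 q.end_mem_support
      subst this
      simp only [cost]
      linarith
    · rcases hS hρ hw g hg hr ha hb hab with h | ⟨c, g1, g2, rfl, hl, hc, h⟩
      · exact h
      · have hg2 : g2.IsPath := hg.of_append_right
        have hsup : ∀ z ∈ g2.support, z ∈ (g1.append g2).support := fun z hz =>
          (Walk.mem_support_append_iff _ _).2 (Or.inr hz)
        have hr2 : W.Reg ρ p k m g2 := by
          refine ⟨hr.m16, hr.big, hr.lo, hr.hi, fun z hz => hr.ball z (hsup z hz),
            fun z hz => hr.band z (hsup z hz), fun z hz => ?_⟩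
          rw [hr.same z (hsup z hz), hr.same c (hsup c g2.start_mem_support)]
        have := ih g2.length (by rw [← hn, Walk.length_append]; omega) g2 hg2 hr2 hc rfl
        rw [cost_append']
        linarith

end Vale.Agent.P235.STO.H317
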