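import Mathlib

/-! P235, (ST) O(1): definitions of the abstract lined world, clocks, scale functions, tilts.
No topology. helper317. -/

namespace Vale.Agent.P235.STO

open SimpleGraph

/-- Lined world: finite connected graph, unit heights, lines `L p` (`p ∈ N`) which separate. -/
structure LWorld (V : Type) where
  G : SimpleGraph V
  u : V → ℤ
  N : Set V
  idx : V → ℕ
  L : V → Set V
  conn : G.Connected
  unit : ∀ x y, G.Adj x y → |u x - u y| = 1
  mem_L : ∀ p ∈ N, p ∈ L p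
  L_sub : ∀ p ∈ N, ∀ z ∈ L p, z ∈ N ∧ idx z ≤ idx p
  L_path : ∀ p ∈ N, ∀ a ∈ L p, ∀ b ∈ L p, u a ≤ u b →
    ∃ q : G.Walk a b, (q.length : ℤ) = u b - u a ∧ ∀ z ∈ q.support, z ∈ L p
  L_level : ∀ p ∈ N, ∀ x ∈ N, ∃ z ∈ L p, u z = u x
  sep : ∀ p ∈ N, ∀ a ∈ N, ∀ b ∈ N, idx a ≤ idx p → idx p ≤ idx b →
    ∀ q : G.Walk a b, ∃ z ∈ q.support, z ∈ L p
  hop : ∀ a b (q : G.Walk a b), q.IsPath → (∀ z ∈ q.support, z ≠ a → z ≠ b → z ∉ N) →
    ∃ m ∈ q.support, |u m - u a| + |u b - u m| = (q.length : ℤ)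

/-! ### constants -/
noncomputable def kap : ℝ := 1 / 2 ^ 22
noncomputable def cp : ℝ := 1 / 2 ^ 21
noncomputable def bb : ℝ := 1 / 2 ^ 14
noncomputable def dl : ℝ := 1 / 2 ^ 25
noncomputable def d1 : ℝ := 1 / 2 ^ 100
noncomputable def e1 : ℝ := 1 / 2 ^ 120
noncomputable def c2 : ℝ := 1 / 2 ^ 10
noncomputable def C1 : ℝ := 2 ^ 11
noncomputable def Cf : ℝ := 2 ^ 14
noncomputable def r0 : ℝ := 2 ^ 90

variable {V : Type}

/-- real graph distance -/
noncomputable def LWorld.d (W : LWorld V) (x y : V) : ℝ := (W.G.dist x y : ℝ)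

/-- thickness `16 * 2^k` -/
def th (k : ℕ) : ℤ := 16 * 2 ^ k

/-- position of `x` in its band -/
def LWorld.pos (W : LWorld V) (k m : ℕ) (x : V) : ℤ := (W.u x + m * 2 ^ k) % th k

/-- band index -/
def LWorld.bi (W : LWorld V) (k m : ℕ) (x : V) : ℤ := (W.u x + m * 2 ^ k) / th k

/-- the band graph: edges inside bands -/
def LWorld.Bg (W : LWorld V) (k m : ℕ) : SimpleGraph V where
  Adj x y := W.G.Adj x y ∧ W.bi k m x = W.bi k m y
  symm := ⟨fun _ _ h => ⟨h.1.symm, h.2.symm⟩⟩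
  loopless := ⟨fun _ h => W.G.loopless.irrefl _ h.1⟩

/-- leftmost lined vertices of the component of `x` -/
def LWorld.src (W : LWorld V) (k m : ℕ) (x : V) : Set V :=
  {y | (W.Bg k m).Reachable x y ∧ y ∈ W.N ∧
    ∀ z ∈ W.N, (W.Bg k m).Reachable x z → W.idx y ≤ W.idx z}

/-- the clock -/
noncomputable def LWorld.D (W : LWorld V) (k m : ℕ) (x : V) : ℕ :=
  sInf {n | ∃ y ∈ W.src k m x, n = (W.Bg k m).dist x y}

/-- middle half of the band -/
def LWorld.mid (W : LWorld V) (k m : ℕ) (x : V) : Prop :=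
  4 * 2 ^ k ≤ W.pos k m x ∧ W.pos k m x ≤ 12 * 2 ^ k

/-- thickness `k` is in the list of a place with scale `r` -/
def inList (r : ℝ) (k : ℕ) : Prop := d1 * r ≤ (th k : ℝ) ∧ (th k : ℝ) ≤ dl * r

/-- the clock `(k, m)` serves the pair `(z, y)` -/
def LWorld.serves (W : LWorld V) (k m : ℕ) (z y : V) : Prop :=
  W.mid k m z ∧ (¬ (W.Bg k m).Reachable z y ∨
    cp * W.d z y ≤ (W.D k m y : ℝ) - (W.D k m z : ℝ))

/-- unserved pairs for a scale function `ρ` -/
def LWorld.uns (W : LWorld V) (ρ : V → ℝ) (z y : V) : Prop :=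
  z ∈ W.N ∧ y ∈ W.N ∧ W.u z = W.u y ∧ W.idx z ≤ W.idx y ∧ r0 ≤ W.d z y ∧
    2 * W.d z y ≤ kap * ρ z ∧ ∀ k m, m < 16 → inList (ρ z) k → ¬ W.serves k m z y

open Classical in
/-- next scale function -/
noncomputable def LWorld.nxt [Fintype V] (W : LWorld V) (ρ : V → ℝ) (x : V) : ℝ :=
  ⨆ zy : V × V, if W.uns ρ zy.1 zy.2 then max 0 (W.d zy.1 zy.2 - W.d x zy.1 / kap) else 0

/-- scale functions; level `0` is constant -/
noncomputable def LWorld.rho [Fintype V] (W : LWorld V) : ℕ → V → ℝ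
  | 0 => fun _ => (4 * Fintype.card V) / kap
  | i + 1 => W.nxt (W.rho i)

/-- cost of a walk for a height function -/
noncomputable def cost {G : SimpleGraph V} (w : V → ℝ) : ∀ {x y : V}, G.Walk x y → ℝ
  | _, _, .nil => 0
  | x, _, .cons (v := v) _ p => |w x - w v| + cost w p

/-- scale functions as in the plan -/
structure LWorld.Scale (W : LWorld V) (ρ : V → ℝ) : Prop where
  nonneg : ∀ x, 0 ≤ ρ x
  lip : ∀ x y, |ρ x - ρ y| ≤ W.d x y / kap

/-- invariant of the world after the tilts of all levels finer than the one of `ρ` and this one -/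
structure LWorld.Inv (W : LWorld V) (ρ : V → ℝ) (w : V → ℝ) : Prop where
  sign : ∀ x y, W.G.Adj x y → 0 < (w x - w y) * ((W.u x : ℝ) - W.u y)
  close : ∀ x, |w x - W.u x| ≤ 2 * e1 * ρ x
  lb : ∀ p q (g : W.G.Walk p q), C1 * d1 * ρ p ≤ W.d p q → c2 * W.d p q ≤ cost w g

end Vale.Agent.P235.STO
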