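import Vale.Agent.P235.ST.H592.Law
import Vale.Agent.P235.ST.H571.Stretch
import Vale.Agent.P235.ST.H673.PieceW
import Vale.Agent.P235.ST.H243.Bumps
import Vale.Agent.P235.ST.H188.RowsPlan

/-! P235, (ST) O(1): part B complete (assembly of the rows). helper317. -/

namespace Vale.Agent.P235.STO.H317

open SimpleGraph

variable {V : Type} [Fintype V]

theorem stretch_all (W : LWorld V) : Stretch W := by
  intro ρ w hρ hw p a b k m g hg hr ha hb hne
  exact H571.stretch W hρ hw g hg hr ha hb hne

/-- **part B**: in every lined world a finite law of functions with edge cost at most one and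
distances bounded below by an absolute constant -/
theorem partB (W : LWorld V) : ∃ (Ω : Type) (_ : Fintype Ω) (_ : Nonempty Ω) (w : Ω → V → ℝ),
    (∀ x y, W.G.Adj x y → ∑ o, |w o x - w o y| ≤ Fintype.card Ω) ∧
    ∀ x ∈ W.N, ∀ y ∈ W.N, 2 ^ 92 ≤ W.d x y →
      Fintype.card Ω * (1 / 2 ^ 190 * W.d x y) ≤ ∑ o, |w o x - w o y| :=
  H592.partB_of W
    (H592.law_zero_of W (H188.rho_eventually W) (H188.rho_scale W)
      (fun _ h x => H188.nxt_le W h x) (fun _ h => H243.bumps W h)
      (fun _ _ _ hρ hw h1 h2 => H673.inv_step W (stretch_all W) hρ hw h1 h2))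
    (fun _ _ hz hy hu hi hd => H188.exists_level W hz hy hu hi hd)

end Vale.Agent.P235.STO.H317
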